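import Vale.Agent.P042.Main

namespace Vale.Agent.Results.P042.SquareLower

/-- `r h N` is the largest size of a set `A ⊆ {1, …, N}` such that every difference of two
elements of `A` that is a value `h(n)` with `n ≥ 1` equals `0`. -/
noncomputable def r (h : Polynomial ℤ) (N : ℕ) : ℕ :=
  sSup {k : ℕ | ∃ A : Finset ℕ, A ⊆ Finset.Icc 1 N ∧
    (∀ a ∈ A, ∀ b ∈ A, ∀ n : ℕ, 1 ≤ n → (a : ℤ) - (b : ℤ) = h.eval (n : ℤ) → h.eval (n : ℤ) = 0) ∧
    A.card = k}

theorem result : ∃ c : ℝ, 0 < c ∧ ∀ N : ℕ, 1 ≤ N →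
    c * (N : ℝ) ^ (87 / 115 : ℝ) ≤ (r (Polynomial.X ^ 2) N : ℝ) := by
  obtain ⟨c, c0, h⟩ := Vale.Agent.P042.main
  refine ⟨c, c0, fun N hN => ?_⟩
  obtain ⟨A, a1, a2, a3⟩ := h N hN
  refine a2.trans (Nat.cast_le.2 (le_csSup ⟨N, ?_⟩ ⟨A.image (· + 1), ?_, ?_, ?_⟩))
  · rintro _ ⟨B, hB, -, rfl⟩
    simpa using Finset.card_le_card hB
  · intro x hx
    obtain ⟨y, hy, rfl⟩ := Finset.mem_image.1 hx
    have := a1 y hy
    simp only [Finset.mem_Icc]
    omega
  · intro a ha b hb n hn e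
    obtain ⟨x, hx, rfl⟩ := Finset.mem_image.1 ha
    obtain ⟨y, hy, rfl⟩ := Finset.mem_image.1 hb
    simp only [Polynomial.eval_pow, Polynomial.eval_X] at e
    refine absurd ?_ (a3 x hx y hy n hn)
    zify
    push_cast at e
    linarith
  · exact Finset.card_image_of_injective _ (add_left_injective 1)

end Vale.Agent.Results.P042.SquareLower
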